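import Vale.Agent.P058.Defs
import Vale.Agent.P058.NotSub
import Vale.Agent.P058.Gadget

namespace Vale.Agent.Results.P058.RamseyNotSub

open Vale.Agent.P058

/-- Powers of two give roots of unity arbitrarily close to any point of the unit circle. -/
lemma exists_root_seq {w : ℂ} (hw : ‖w‖ = 1) :
    ∃ ω : ℕ → ℂ, (∀ K, ω K ^ 2 ^ K = 1) ∧ Filter.Tendsto ω Filter.atTop (nhds w) := by
  refine ⟨fun K => Complex.exp ((2 * Real.pi * (⌊Complex.arg w / (2 * Real.pi) * 2 ^ K⌋ : ℝ)
    / 2 ^ K : ℝ) * Complex.I), fun K => ?_, ?_⟩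
  · rw [← Complex.exp_nat_mul, Complex.exp_eq_one_iff]
    refine ⟨⌊Complex.arg w / (2 * Real.pi) * 2 ^ K⌋, ?_⟩
    push_cast
    field_simp
  · have hlim : Filter.Tendsto (fun K : ℕ => 2 * Real.pi *
        (⌊Complex.arg w / (2 * Real.pi) * 2 ^ K⌋ : ℝ) / 2 ^ K) Filter.atTop
        (nhds (Complex.arg w)) := by
      have h0 : Filter.Tendsto (fun K : ℕ => 2 * Real.pi * (1 / 2 : ℝ) ^ K) Filter.atTop
          (nhds 0) := by
        simpa using (tendsto_pow_atTop_nhds_zero_of_lt_one (by norm_num : (0 : ℝ) ≤ 1 / 2)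
          (by norm_num)).const_mul (2 * Real.pi)
      refine tendsto_of_tendsto_of_tendsto_of_le_of_le
        (g := fun K => Complex.arg w - 2 * Real.pi * (1 / 2 : ℝ) ^ K)
        (h := fun _ => Complex.arg w) (by simpa using tendsto_const_nhds.sub h0)
        tendsto_const_nhds (fun K => ?_) (fun K => ?_)
      · have := Int.lt_floor_add_one (Complex.arg w / (2 * Real.pi) * 2 ^ K)
        generalize (⌊Complex.arg w / (2 * Real.pi) * 2 ^ K⌋ : ℝ) = t at this ⊢
        simp only [one_div, inv_pow]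
        rw [le_div_iff₀ (by positivity), sub_mul, mul_assoc (2 * Real.pi),
          inv_mul_cancel₀ (by positivity)]
        rw [div_mul_eq_mul_div, div_lt_iff₀ (by positivity)] at this
        nlinarith
      · have := Int.floor_le (Complex.arg w / (2 * Real.pi) * 2 ^ K)
        generalize (⌊Complex.arg w / (2 * Real.pi) * 2 ^ K⌋ : ℝ) = t at this ⊢
        dsimp only
        rw [div_le_iff₀ (by positivity)]
        rw [div_mul_eq_mul_div, le_div_iff₀ (by positivity)] at this
        linarith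
    have hc : Continuous fun t : ℝ => Complex.exp ((t : ℂ) * Complex.I) := by fun_prop
    have h := (hc.tendsto (Complex.arg w)).comp hlim
    have hwe : Complex.exp ((Complex.arg w : ℂ) * Complex.I) = w := by
      have := Complex.norm_mul_exp_arg_mul_I w
      rwa [hw, Complex.ofReal_one, one_mul] at this
    simp only [hwe] at h
    exact h

open ComplexConjugate

/-- The vertices of the right kite as complex numbers. -/
noncomputable def kiteC (w : ℂ) : Fin 4 → ℂ := ![1, w, -1, conj w]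

lemma kite_hasGadget {w : ℂ} (hw : ‖w‖ = 1) (him : w.im ≠ 0) : HasGadget (kiteC w) := by
  intro ε hε
  obtain ⟨ω, hω, hlim⟩ := exists_root_seq hw
  have hw0 : w ≠ 0 := fun h => by simp [h] at hw
  have hnn : w * conj w = 1 := by rw [Complex.mul_conj, Complex.normSq_eq_norm_sq, hw]; simp
  have hden : 1 - w * w ≠ 0 := by
    intro h
    have : w * w = w * conj w := by rw [hnn]; linear_combination -h
    have := congrArg Complex.im (mul_left_cancel₀ hw0 this)
    simp at this
    exact him (by linarith)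
  set P : ℕ → ℂ := fun K => (ω K - w) / (1 - ω K * w) with hP
  have hPlim : Filter.Tendsto P Filter.atTop (nhds 0) := by
    have := (hlim.sub_const w).div (tendsto_const_nhds.sub (hlim.mul_const w)) hden
    simpa [hP, Pi.div_def, sub_self, zero_div] using this
  have hn : Filter.Tendsto (fun K => ‖P K‖ ^ 2) Filter.atTop (nhds 0) := by
    simpa using (hPlim.norm.pow 2)
  have hdlim : Filter.Tendsto (fun K => 1 - ω K * w) Filter.atTop (nhds (1 - w * w)) :=
    tendsto_const_nhds.sub (hlim.mul_const w)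
  obtain ⟨K, hK1, hKε, hKd⟩ := ((Filter.eventually_ge_atTop 1).and
    ((hn.eventually_lt_const hε).and (hdlim.eventually_ne hden))).exists
  have hωn : ‖ω K‖ = 1 := Complex.norm_eq_one_of_pow_eq_one (hω K) (by positivity)
  have hωω : ω K * conj (ω K) = 1 := by
    rw [Complex.mul_conj, Complex.normSq_eq_norm_sq, hωn]; simp
  have hω0 : ω K ≠ 0 := fun h => by simp [h] at hωn
  obtain ⟨p, hp⟩ : ∃ p : ℝ, P K = p := by
    refine Complex.conj_eq_iff_real.1 ?_
    simp only [hP, map_div₀, map_sub, map_one, map_mul]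
    have hd' : 1 - conj (ω K) * conj w ≠ 0 := by
      intro h
      apply hKd
      have := congrArg conj h
      simpa using this
    rw [div_eq_div_iff hd' hKd]
    linear_combination (conj w - w) * hωω + (ω K - conj (ω K)) * hnn
  have heq : (p : ℂ) + w = ω K * (1 + p * w) := by
    have : (p : ℂ) * (1 - ω K * w) = ω K - w := by
      rw [← hp]; exact div_mul_cancel₀ _ hKd
    linear_combination this
  refine ⟨p, K, ?_, fun i => ?_⟩
  · rw [hp, Complex.norm_real, Real.norm_eq_abs, sq_abs] at hKε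
    exact hKε.le
  fin_cases i
  · exact ⟨1, one_pow _, by simp [kiteC]; ring⟩
  · exact ⟨ω K, hω K, by simpa [kiteC] using heq⟩
  · refine ⟨-1, Even.neg_one_pow ?_, by simp [kiteC]⟩
    exact (Nat.even_pow.2 ⟨even_two, by omega⟩)
  · refine ⟨conj (ω K), by rw [← map_pow, hω K, map_one], ?_⟩
    simpa [kiteC] using congrArg conj heq

lemma kite_ramsey {a : ℝ} (ha : a ∈ Set.Ioo (-1 : ℝ) 1) : IsRamsey (kite a) := by
  intro r _
  set b := Real.sqrt (1 - a ^ 2) with hb
  have hb0 : 0 < 1 - a ^ 2 := by nlinarith [ha.1, ha.2]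
  set w : ℂ := ⟨a, b⟩ with hw
  have hwn : ‖w‖ = 1 := by
    rw [Complex.norm_def, Complex.normSq_mk, hb, Real.mul_self_sqrt hb0.le]
    rw [show a * a + (1 - a ^ 2) = 1 by ring, Real.sqrt_one]
  have him : w.im ≠ 0 := (Real.sqrt_pos.2 hb0).ne'
  obtain ⟨D, hD⟩ := ramsey_of_gadget (kite_hasGadget hwn him) r
  set pt : Fin 4 → EuclideanSpace ℝ (Fin 2) :=
    fun i => !₂[(kiteC w i).re, (kiteC w i).im] with hpt
  have hmem : ∀ z : kite a, ∃ i, pt i = z := by
    rintro ⟨z, hz⟩
    simp only [kite, Set.mem_insert_iff, Set.mem_singleton_iff] at hz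
    rcases hz with rfl | rfl | rfl | rfl
    · exact ⟨0, by simp [hpt, kiteC]⟩
    · exact ⟨1, by simp [hpt, kiteC, hw, hb]⟩
    · exact ⟨2, by simp [hpt, kiteC]⟩
    · exact ⟨3, by simp [hpt, kiteC, hw, hb]⟩
  choose idx hidx using hmem
  refine ⟨D + 1, by omega, fun c => ?_⟩
  obtain ⟨F, hF, hcol⟩ := hD (fun v => c (WithLp.toLp 2 (Fin.snoc v 0)))
  refine ⟨fun z => WithLp.toLp 2 (Fin.snoc (F (idx z)) 0), fun x y => ?_, fun x y => hcol _ _⟩
  rw [← sq_eq_sq₀ dist_nonneg dist_nonneg, ← hidx x, ← hidx y]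
  simp only [hpt]
  rw [dist_two_sq, EuclideanSpace.dist_eq, Real.sq_sqrt (Finset.sum_nonneg fun i _ => by positivity)]
  simp only [Fin.sum_univ_castSucc, Fin.snoc_castSucc, Fin.snoc_last, dist_self, Real.dist_eq,
    sq_abs]
  rw [hF]
  simp [Complex.normSq_apply, sq]

/-- Some finite Ramsey set is not subtransitive: all right kites are Ramsey, and the one with
`a = √2 - 1` is not subtransitive. -/
theorem result :
    (∀ a ∈ Set.Ioo (-1 : ℝ) 1, IsRamsey (kite a)) ∧
      ¬ IsSubtransitive (kite (Real.sqrt 2 - 1)) ∧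
      ¬ (∀ (d : ℕ) (A : Set (EuclideanSpace ℝ (Fin d))), A.Finite → A.Nonempty →
          (IsRamsey A ↔ IsSubtransitive A)) := by
  refine ⟨fun a ha => kite_ramsey ha, kite_not_subtransitive, fun h => ?_⟩
  have ha : Real.sqrt 2 - 1 ∈ Set.Ioo (-1 : ℝ) 1 := by
    constructor
    · have := Real.sqrt_nonneg 2
      have : (1 : ℝ) ≤ Real.sqrt 2 := Real.one_le_sqrt.2 (by norm_num)
      linarith
    · nlinarith [Real.sq_sqrt (show (0 : ℝ) ≤ 2 by norm_num), Real.sqrt_nonneg 2]
  refine kite_not_subtransitive ((h 2 (kite (Real.sqrt 2 - 1)) ?_ ?_).1 (kite_ramsey ha))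
  · simp [kite]
  · exact Set.insert_nonempty _ _

end Vale.Agent.Results.P058.RamseyNotSub
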