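import Vale.Agent.P058.Defs
import Vale.Agent.P058.Obstruction

namespace Vale.Agent.Results.P058.SphericalNotRamsey

open Vale.Agent.P058
open scoped InnerProductSpace

/-- Three points of the plane fix an affine map: any congruent copy of a set containing
`(1,0)`, `(0,1)`, `(-3/5,4/5)` is the image under `(x,y) ↦ a + x U₁ + y U₂`. -/
lemma affine_copy {E : Type*} [NormedAddCommGroup E] [InnerProductSpace ℝ E] {ι : Type*}
    (x y : ι → ℝ) (f : ι → E) (o e w : ι)
    (ho : x o = 1 ∧ y o = 0) (he : x e = 0 ∧ y e = 1) (hw : x w = -3 / 5 ∧ y w = 4 / 5)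
    (h : ∀ i j, dist (f i) (f j) ^ 2 = (x i - x j) ^ 2 + (y i - y j) ^ 2) :
    ∃ a U V : E, ‖U‖ ^ 2 = 1 ∧ ‖V‖ ^ 2 = 1 ∧ ∀ i, f i = a + x i • U + y i • V := by
  have G : ∀ i j, ⟪f i - f o, f j - f o⟫_ℝ = (x i - 1) * (x j - 1) + y i * y j := by
    intro i j
    have h1 := h i o
    have h2 := h j o
    have h3 := h i j
    simp only [dist_eq_norm] at h1 h2 h3
    have h4 := norm_sub_sq_real (f i - f o) (f j - f o)
    rw [sub_sub_sub_cancel_right, h1, h2, h3, ho.1, ho.2] at h4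
    linear_combination h4 / 2
  set a := f o + ((-1 : ℝ) • (f e - f o) + (5 / 4 : ℝ) • (f w - f o)) with ha
  have hU : f o - a = (1 : ℝ) • (f e - f o) + (-5 / 4 : ℝ) • (f w - f o) := by
    rw [ha]; module
  have hV : f e - a = (2 : ℝ) • (f e - f o) + (-5 / 4 : ℝ) • (f w - f o) := by
    rw [ha]; module
  have sq : ∀ r s t : ℝ, ∀ i, ‖r • (f i - f o) + (s • (f e - f o) + t • (f w - f o))‖ ^ 2 =
      (r * (x i - 1) + s * (-1) + t * (-8 / 5)) ^ 2 + (r * y i + s + t * (4 / 5)) ^ 2 := by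
    intro r s t i
    rw [← real_inner_self_eq_norm_sq]
    simp only [inner_add_left, inner_add_right, real_inner_smul_left, real_inner_smul_right, G,
      he.1, he.2, hw.1, hw.2]
    ring
  refine ⟨a, f o - a, f e - a, ?_, ?_, fun i => ?_⟩
  · have := sq 0 1 (-5 / 4) o
    rw [zero_smul, zero_add, ← hU] at this
    rw [this]; norm_num
  · have := sq 0 2 (-5 / 4) o
    rw [zero_smul, zero_add, ← hV] at this
    rw [this]; norm_num
  · have := sq 1 (1 - x i - 2 * y i) (-5 / 4 * (1 - x i - y i)) i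
    rw [show (1 * (x i - 1) + (1 - x i - 2 * y i) * (-1)
        + -5 / 4 * (1 - x i - y i) * (-8 / 5)) ^ 2
        + (1 * y i + (1 - x i - 2 * y i) + -5 / 4 * (1 - x i - y i) * (4 / 5)) ^ 2 = (0 : ℝ) by ring]
      at this
    have h0 := norm_eq_zero.1 (pow_eq_zero_iff (by norm_num : 2 ≠ 0) |>.1 this)
    rw [← sub_eq_zero, ← h0, ha]
    module

/-- A finite subset of the unit circle that is not Ramsey. -/
theorem result : ∃ A : Set (EuclideanSpace ℝ (Fin 2)),
    A.Finite ∧ A.Nonempty ∧ (∀ x ∈ A, ‖x‖ = 1) ∧ ¬ IsRamsey A := by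
  obtain ⟨τ, hτ'⟩ : ∃ τ : ℝ, Transcendental ℤ τ :=
    ⟨_, transcendental_liouvilleNumber le_rfl⟩
  have hτ : Transcendental ℚ τ := fun h => hτ' ((IsFractionRing.isAlgebraic_iff ℤ ℚ ℝ).2 h)
  obtain ⟨lam, hlam⟩ := exists_obstruction hτ
  set X := fun i => coordR hτ i 1 with hX
  set Y := fun i => coordR hτ i 2 with hY
  have h0 : ∀ i, coordR hτ i 0 = 1 := fun i => by rw [coordR, coordK_zero hτ, map_one]
  set pt : Fin 3 × Fin 3 → EuclideanSpace ℝ (Fin 2) := fun i => !₂[X i, Y i] with hpt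
  refine ⟨Set.range pt, Set.finite_range pt, Set.range_nonempty pt, ?_, fun hR => ?_⟩
  · rintro _ ⟨i, rfl⟩
    have hd : (1 + par τ i ^ 2) ≠ 0 := by positivity
    rw [← sq_eq_sq₀ (norm_nonneg _) zero_le_one, EuclideanSpace.norm_sq_eq]
    simp [hpt, hX, hY, coordR_eq, circVec, Fin.sum_univ_two]
    field_simp
    ring
  obtain ⟨D, -, hD⟩ := hR (Fintype.card (Fin 3 × Fin 3 → ZMod 30)) (by simp)
  set F : Fin 3 × Fin 3 → EuclideanSpace ℝ (Fin D) → ℝ :=
    fun i z => ∑ l, z l * lam i (z l) with hF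
  obtain ⟨f, hf, hc⟩ := hD fun z => Fintype.equivFin _ fun i => ((⌊F i z⌋ : ℤ) : ZMod 30)
  set g := fun i => f ⟨pt i, Set.mem_range_self i⟩ with hg
  have hgd : ∀ i j, dist (g i) (g j) ^ 2 = (X i - X j) ^ 2 + (Y i - Y j) ^ 2 := by
    intro i j
    rw [hg, hf, hpt, dist_two_sq]
  have hbase : ∀ p : Fin 3, X (p, p) = circVec (p.val : ℝ) 1 / circVec (p.val : ℝ) 0 ∧
      Y (p, p) = circVec (p.val : ℝ) 2 / circVec (p.val : ℝ) 0 := fun p => by
    simp [hX, hY, coordR_eq, par]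
  obtain ⟨a, U, V, hU, hV, hg'⟩ := affine_copy X Y g (0, 0) (1, 1) (2, 2)
    (by rw [(hbase 0).1, (hbase 0).2]; simp [circVec])
    (by rw [(hbase 1).1, (hbase 1).2]; simp [circVec]; norm_num)
    (by rw [(hbase 2).1, (hbase 2).2]; simp [circVec]; norm_num) hgd
  have hsum : ∑ i, F i (g i) = 10 := by
    simp only [hF]
    rw [Finset.sum_comm]
    have hl : ∀ l, ∑ i, g i l * lam i (g i l) = 5 * U l ^ 2 + 5 * V l ^ 2 := by
      intro l
      set c : Fin 3 → ℝ := ![a l, U l, V l] with hcdef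
      have hgl : ∀ i, g i l = ∑ k, coordR hτ i k * c k := by
        intro i
        rw [hg' i]
        simp [Fin.sum_univ_three, hcdef, h0, hX, hY]
      have hexp : ∀ i, g i l * lam i (g i l) =
          ∑ k, ∑ l', c k * (coordR hτ i k * lam i (coordR hτ i l' * c l')) := by
        intro i
        rw [hgl i, map_sum, Finset.sum_mul_sum]
        exact Finset.sum_congr rfl fun k _ => Finset.sum_congr rfl fun l' _ => by ring
      simp only [hexp]
      rw [Finset.sum_comm]
      rw [Finset.sum_congr rfl fun k _ => Finset.sum_comm]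
      simp only [← Finset.mul_sum, hlam]
      simp [Fin.sum_univ_three, target, hcdef]
      ring
    simp only [hl, Finset.sum_add_distrib, ← Finset.mul_sum]
    have e : ∀ W : EuclideanSpace ℝ (Fin D), ∑ l, W l ^ 2 = ‖W‖ ^ 2 := fun W => by
      simp [EuclideanSpace.norm_sq_eq]
    rw [e, e, hU, hV]
    norm_num
  have hzero : ∑ i, F i (g (0, 0)) = 0 := by
    simp only [hF]
    rw [Finset.sum_comm]
    refine Finset.sum_eq_zero fun l _ => ?_
    have h := hlam 0 0 (g (0, 0) l)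
    simp only [h0, one_mul, target, ne_eq, not_true_eq_false, and_false, if_false, zero_mul] at h
    rw [← Finset.mul_sum, h, mul_zero]
  have hmod : ∀ i, ∃ k : ℤ, |F i (g i) - F i (g (0, 0)) - 30 * k| < 1 := by
    intro i
    have h := congrFun ((Fintype.equivFin _).injective
      (hc ⟨pt i, Set.mem_range_self i⟩ ⟨pt (0, 0), Set.mem_range_self _⟩)) i
    obtain ⟨k, hk⟩ := (ZMod.intCast_eq_intCast_iff_dvd_sub _ _ 30).1 h.symm
    refine ⟨k, ?_⟩
    have hk' := congrArg (fun n : ℤ => (n : ℝ)) hk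
    push_cast at hk'
    have := Int.floor_le (F i (g i))
    have := Int.floor_le (F i (g (0, 0)))
    have := Int.lt_floor_add_one (F i (g i))
    have := Int.lt_floor_add_one (F i (g (0, 0)))
    rw [abs_lt]
    simp only [hg] at *
    constructor <;> linarith
  choose k hk using hmod
  have hb : |(10 : ℝ) - 30 * ((∑ i, k i : ℤ) : ℝ)| < 9 := by
    have e : (10 : ℝ) - 30 * ((∑ i, k i : ℤ) : ℝ) =
        ∑ i, (F i (g i) - F i (g (0, 0)) - 30 * (k i : ℝ)) := by
      rw [Finset.sum_sub_distrib, Finset.sum_sub_distrib, hsum, hzero, ← Finset.mul_sum]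
      push_cast; ring
    rw [e]
    refine lt_of_le_of_lt (Finset.abs_sum_le_sum_abs _ _) ?_
    refine lt_of_lt_of_le (Finset.sum_lt_sum_of_nonempty Finset.univ_nonempty fun i _ => hk i) ?_
    norm_num
  rw [abs_lt] at hb
  rcases le_or_gt (∑ i, k i) 0 with h | h
  · have : ((∑ i, k i : ℤ) : ℝ) ≤ 0 := by exact_mod_cast h
    linarith [hb.2]
  · have : (1 : ℝ) ≤ ((∑ i, k i : ℤ) : ℝ) := by exact_mod_cast h
    linarith [hb.1]

end Vale.Agent.Results.P058.SphericalNotRamsey
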